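import Mathlib

/-! P095: a finite family of complex numbers whose power sums all vanish is zero. -/

namespace Vale.Agent.P095

theorem eq_zero_of_powerSum_eq_zero {ι : Type*} [Fintype ι] (z : ι → ℂ)
    (h : ∀ k : ℕ, ∑ i, z i ^ (k + 1) = 0) (i₀ : ι) : z i₀ = 0 := by
  classical
  by_contra hne
  set V : Finset ℂ := (Finset.univ.image z).erase (z i₀) with hV
  set Q : Polynomial ℂ := ∏ v ∈ V, (Polynomial.X - Polynomial.C v) with hQ
  have hsum : ∑ i, z i * Q.eval (z i) = 0 := by
    simp_rw [Polynomial.eval_eq_sum_range, Finset.mul_sum]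
    rw [Finset.sum_comm]
    refine Finset.sum_eq_zero fun k _ => ?_
    have : ∀ i, z i * (Q.coeff k * z i ^ k) = Q.coeff k * z i ^ (k + 1) := fun i => by ring
    simp_rw [this, ← Finset.mul_sum, h k, mul_zero]
  have hval : ∀ i, z i * Q.eval (z i) = if z i = z i₀ then z i₀ * Q.eval (z i₀) else 0 := by
    intro i
    split_ifs with hi
    · rw [hi]
    · rw [hQ, Polynomial.eval_prod,
        Finset.prod_eq_zero (i := z i) (by simp [hV, hi]) (by simp), mul_zero]
  have hQne : Q.eval (z i₀) ≠ 0 := by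
    rw [hQ, Polynomial.eval_prod, Finset.prod_ne_zero_iff]
    intro v hv
    rw [Polynomial.eval_sub, Polynomial.eval_X, Polynomial.eval_C]
    exact sub_ne_zero.2 (Finset.ne_of_mem_erase hv).symm
  rw [Finset.sum_congr rfl fun i _ => hval i] at hsum
  rw [Finset.sum_ite, Finset.sum_const_zero, add_zero, Finset.sum_const, nsmul_eq_mul,
    mul_eq_zero] at hsum
  rcases hsum with hc | hc
  · have : i₀ ∈ Finset.univ.filter (fun i => z i = z i₀) := by simp
    exact (Finset.card_pos.2 ⟨i₀, this⟩).ne' (by exact_mod_cast hc)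
  · exact (mul_ne_zero hne hQne) hc

end Vale.Agent.P095
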