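import Vale.Agent.P095.WeakLim
import Vale.Agent.P095.PowerSum

/-!
P095: the core lemma. Commuting representations of `B₀` together with a unit vector whose
symmetrised product elements have variance zero force a character of `B₀`.
-/

open Filter Topology
open scoped InnerProductSpace

namespace Vale.Agent.P095

variable {H : Type*} [NormedAddCommGroup H] [InnerProductSpace ℂ H] [CompleteSpace H]
variable {B₀ : Type*} [CStarAlgebra B₀]
variable {ι : Type*} [Fintype ι]

set_option linter.unusedSectionVars false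

/-- Products of differences of two copies of `a g`, over a list of pairs of slots. -/
noncomputable def diffProd (θ : ℕ → B₀ →⋆ₐ[ℂ] (H →L[ℂ] H)) (a : ι → B₀) :
    List (ℕ × ℕ) → ι → (H →L[ℂ] H)
  | [], _ => 1
  | (p, q) :: l, g => (θ p (a g) - θ q (a g)) * diffProd θ a l g

section

variable (θ : ℕ → B₀ →⋆ₐ[ℂ] (H →L[ℂ] H)) {L : B₀ → (H →L[ℂ] H)}

/-- The covariance operator of two elements. -/
noncomputable def cov (L : B₀ → (H →L[ℂ] H)) (x y : B₀) : H →L[ℂ] H :=
  (2 : ℂ) • (L (star x * y) - L (star x) * L y)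

theorem wLim_inner (hθ : ∀ p q, p ≠ q → ∀ x y, Commute (θ p x) (θ q y))
    (hL : ∀ x, WLim (fun n => θ n x) (L x)) (x y : B₀) (q : ℕ) :
    WLim (fun p => star (θ p x - θ q x) * (θ p y - θ q y))
      (L (star x * y) + θ q (star x * y) - L (star x) * θ q y - θ q (star x) * L y) := by
  have he : ∀ p, star (θ p x - θ q x) * (θ p y - θ q y) =
      θ p (star x * y) + θ q (star x * y) - θ p (star x) * θ q y - θ q (star x) * θ p y := fun p => by
    simp only [star_sub, ← map_star, sub_mul, mul_sub, map_mul]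
    abel
  exact ((((hL _).add (WLim.const _)).sub ((hL _).mul_right _)).sub ((hL _).mul_left _)).congr
    (Eventually.of_forall fun p => (he p).symm)

theorem wLim_outer (hL : ∀ x, WLim (fun n => θ n x) (L x)) (x y : B₀) :
    WLim (fun q => L (star x * y) + θ q (star x * y) - L (star x) * θ q y - θ q (star x) * L y)
      (cov L x y) := by
  have he : cov L x y = L (star x * y) + L (star x * y) - L (star x) * L y - L (star x) * L y := by
    simp only [cov, two_smul]
    abel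
  rw [he]
  exact (((WLim.const _).add (hL _)).sub ((hL _).mul_left _)).sub ((hL _).mul_right _)

theorem commute_weakLim (hθ : ∀ p q, p ≠ q → ∀ x y, Commute (θ p x) (θ q y))
    (hL : ∀ x, WLim (fun n => θ n x) (L x)) (x : B₀) (q : ℕ) (y : B₀) :
    Commute (θ q y) (L x) :=
  (hL x).commute _ ((lim_eventually_ne q).mono fun _ hn => hθ _ _ (Ne.symm hn) _ _)

theorem commute_weakLim_weakLim (hθ : ∀ p q, p ≠ q → ∀ x y, Commute (θ p x) (θ q y))
    (hL : ∀ x, WLim (fun n => θ n x) (L x)) (x y : B₀) : Commute (L x) (L y) :=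
  (hL y).commute _ (Eventually.of_forall fun n => (commute_weakLim θ hθ hL x n y).symm)

theorem commute_cov (hθ : ∀ p q, p ≠ q → ∀ x y, Commute (θ p x) (θ q y))
    (hL : ∀ x, WLim (fun n => θ n x) (L x)) (x y : B₀) (q : ℕ) (z : B₀) :
    Commute (θ q z) (cov L x y) :=
  (((commute_weakLim θ hθ hL _ q z).sub_right
    ((commute_weakLim θ hθ hL _ q z).mul_right (commute_weakLim θ hθ hL _ q z)))).smul_right _

/-- The symmetrised second moment sum. -/
noncomputable def momentSum (L : B₀ → (H →L[ℂ] H)) (a : ι → B₀) (k : ℕ) (l : List (ℕ × ℕ)) :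
    H →L[ℂ] H :=
  ∑ g, ∑ h, star (diffProd θ a l g) * cov L (a g) (a h) ^ k * diffProd θ a l h

theorem momentSum_cons (hθ : ∀ p q, p ≠ q → ∀ x y, Commute (θ p x) (θ q y))
    (hL : ∀ x, WLim (fun n => θ n x) (L x)) (a : ι → B₀) (k p q : ℕ) (l : List (ℕ × ℕ)) :
    momentSum θ L a k ((p, q) :: l) = ∑ g, ∑ h, star (diffProd θ a l g) *
      (cov L (a g) (a h) ^ k * (star (θ p (a g) - θ q (a g)) * (θ p (a h) - θ q (a h)))) *
        diffProd θ a l h := by
  refine Finset.sum_congr rfl fun g _ => Finset.sum_congr rfl fun h _ => ?_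
  have hc : Commute (star (θ p (a g) - θ q (a g))) (cov L (a g) (a h) ^ k) := by
    rw [star_sub, ← map_star, ← map_star]
    exact ((commute_cov θ hθ hL _ _ p _).sub_left (commute_cov θ hθ hL _ _ q _)).pow_right k
  simp only [diffProd, star_mul]
  simp only [← mul_assoc]
  rw [mul_assoc _ _ (cov L (a g) (a h) ^ k), hc.eq]
  simp only [mul_assoc]

/-- Iterated limit of the second moment sums. -/
theorem momentSum_tendsto (hθ : ∀ p q, p ≠ q → ∀ x y, Commute (θ p x) (θ q y))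
    (hL : ∀ x, WLim (fun n => θ n x) (L x)) (a : ι → B₀) (k : ℕ) (l : List (ℕ × ℕ)) (ζ : H) :
    ∃ F : ℕ → ℂ, (∀ q, Tendsto (fun p => ⟪ζ, momentSum θ L a k ((p, q) :: l) ζ⟫_ℂ) lim (𝓝 (F q)))
      ∧ Tendsto F lim (𝓝 ⟪ζ, momentSum θ L a (k + 1) l ζ⟫_ℂ) := by
  refine ⟨fun q => ⟪ζ, (∑ g, ∑ h, star (diffProd θ a l g) * (cov L (a g) (a h) ^ k *
      (L (star (a g) * a h) + θ q (star (a g) * a h) - L (star (a g)) * θ q (a h)
        - θ q (star (a g)) * L (a h))) * diffProd θ a l h) ζ⟫_ℂ, fun q => ?_, ?_⟩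
  · simp_rw [momentSum_cons θ hθ hL]
    exact WLim.sum _ (fun g _ => WLim.sum _ fun h _ =>
      (((wLim_inner θ hθ hL _ _ q).mul_left _).mul_left _).mul_right _) ζ ζ
  · simp only [momentSum, pow_succ]
    exact WLim.sum _ (fun g _ => WLim.sum _ fun h _ =>
      (((wLim_outer θ hL _ _).mul_left _).mul_left _).mul_right _) ζ ζ

theorem inner_momentSum_zero (a : ι → B₀) (l : List (ℕ × ℕ)) (ζ : H) :
    ⟪ζ, momentSum θ L a 0 l ζ⟫_ℂ =
      ⟪(∑ g, diffProd θ a l g) ζ, (∑ g, diffProd θ a l g) ζ⟫_ℂ := by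
  have : momentSum θ L a 0 l = star (∑ g, diffProd θ a l g) * ∑ g, diffProd θ a l g := by
    simp [momentSum, star_sum, Finset.sum_mul_sum]
  rw [this, ContinuousLinearMap.mul_apply, ContinuousLinearMap.star_eq_adjoint, ContinuousLinearMap.adjoint_inner_right]

theorem inner_momentSum_nonneg (hθ : ∀ p q, p ≠ q → ∀ x y, Commute (θ p x) (θ q y))
    (hL : ∀ x, WLim (fun n => θ n x) (L x)) (a : ι → B₀) (ζ : H) (k : ℕ) :
    ∀ l, 0 ≤ (⟪ζ, momentSum θ L a k l ζ⟫_ℂ).re ∧ (⟪ζ, momentSum θ L a k l ζ⟫_ℂ).im = 0 := by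
  induction k with
  | zero =>
    intro l
    rw [inner_momentSum_zero θ a l ζ]
    exact ⟨inner_self_nonneg (𝕜 := ℂ), inner_self_im (𝕜 := ℂ) _⟩
  | succ k ih =>
    intro l
    obtain ⟨F, hF, hlim⟩ := momentSum_tendsto θ hθ hL a k l ζ
    have hS : IsClosed {z : ℂ | 0 ≤ z.re ∧ z.im = 0} :=
      (isClosed_le continuous_const Complex.continuous_re).inter
        (isClosed_eq Complex.continuous_im continuous_const)
    exact hS.mem_of_tendsto hlim (Eventually.of_forall fun q =>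
      hS.mem_of_tendsto (hF q) (Eventually.of_forall fun p => ih _))

theorem inner_momentSum_eq_zero (hθ : ∀ p q, p ≠ q → ∀ x y, Commute (θ p x) (θ q y))
    (hL : ∀ x, WLim (fun n => θ n x) (L x)) (a : ι → B₀) (ξ : H)
    (hvar : ∀ l, ⟪(∑ g, diffProd θ a l g) ξ, (∑ g, diffProd θ a l g) ξ⟫_ℂ =
      (starRingEnd ℂ) ⟪ξ, (∑ g, diffProd θ a l g) ξ⟫_ℂ * ⟪ξ, (∑ g, diffProd θ a l g) ξ⟫_ℂ)
    (k : ℕ) : ∀ l, ⟪ξ, momentSum θ L a (k + 1) l ξ⟫_ℂ = 0 := by
  induction k with
  | zero =>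
    intro l
    obtain ⟨F, hF, hlim⟩ := momentSum_tendsto θ hθ hL a 0 l ξ
    simp_rw [inner_momentSum_zero θ a _ ξ, hvar] at hF
    have hX : ∀ q, Tendsto (fun p => ⟪ξ, (∑ g, diffProd θ a ((p, q) :: l) g) ξ⟫_ℂ) lim
        (𝓝 ⟪ξ, (∑ g, (L (a g) - θ q (a g)) * diffProd θ a l g) ξ⟫_ℂ) := fun q => by
      simp only [diffProd]
      exact WLim.sum _ (fun g _ => ((hL _).sub (WLim.const _)).mul_right _) ξ ξ
    have hX0 : Tendsto (fun q => ⟪ξ, (∑ g, (L (a g) - θ q (a g)) * diffProd θ a l g) ξ⟫_ℂ) lim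
        (𝓝 0) := by
      have := WLim.sum Finset.univ (fun g _ =>
        ((WLim.const (L (a g))).sub (hL (a g))).mul_right (diffProd θ a l g)) ξ ξ
      simpa using this
    have hF' : ∀ q, F q = (starRingEnd ℂ) ⟪ξ, (∑ g, (L (a g) - θ q (a g)) * diffProd θ a l g) ξ⟫_ℂ *
        ⟪ξ, (∑ g, (L (a g) - θ q (a g)) * diffProd θ a l g) ξ⟫_ℂ := fun q =>
      tendsto_nhds_unique (hF q) (((Complex.continuous_conj.tendsto _).comp (hX q)).mul (hX q))
    refine tendsto_nhds_unique hlim ?_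
    rw [funext hF']
    simpa using ((Complex.continuous_conj.tendsto _).comp hX0).mul hX0
  | succ k ih =>
    intro l
    obtain ⟨F, hF, hlim⟩ := momentSum_tendsto θ hθ hL a (k + 1) l ξ
    simp_rw [ih] at hF
    refine tendsto_nhds_unique hlim ?_
    have : ∀ q, F q = 0 := fun q => tendsto_nhds_unique (hF q) tendsto_const_nhds
    rw [funext this]
    exact tendsto_const_nhds

theorem momentSum_apply_eq_zero (hθ : ∀ p q, p ≠ q → ∀ x y, Commute (θ p x) (θ q y))
    (hL : ∀ x, WLim (fun n => θ n x) (L x)) (a : ι → B₀) (ξ : H)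
    (hvar : ∀ l, ⟪(∑ g, diffProd θ a l g) ξ, (∑ g, diffProd θ a l g) ξ⟫_ℂ =
      (starRingEnd ℂ) ⟪ξ, (∑ g, diffProd θ a l g) ξ⟫_ℂ * ⟪ξ, (∑ g, diffProd θ a l g) ξ⟫_ℂ)
    (k : ℕ) : momentSum θ L a (k + 1) [] ξ = 0 := by
  set T := momentSum θ L a (k + 1) [] with hT
  have hpos : T.IsPositive := by
    rw [ContinuousLinearMap.isPositive_iff_complex]
    intro x
    obtain ⟨h1, h2⟩ := inner_momentSum_nonneg θ hθ hL a x (k + 1) []
    have hx : ⟪T x, x⟫_ℂ = ⟪x, T x⟫_ℂ := by
      rw [← inner_conj_symm]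
      exact Complex.conj_eq_iff_im.2 h2
    rw [hx]
    exact ⟨Complex.ext rfl (by simpa using h2.symm), h1⟩
  rw [← ContinuousLinearMap.nonneg_iff_isPositive] at hpos
  set S := CFC.sqrt T with hS
  have hSS : star S * S = T := by
    rw [(IsSelfAdjoint.of_nonneg (CFC.sqrt_nonneg T)).star_eq, CFC.sqrt_mul_sqrt_self T hpos]
  have h0 : ⟪ξ, T ξ⟫_ℂ = 0 := inner_momentSum_eq_zero θ hθ hL a ξ hvar k []
  rw [← hSS, ContinuousLinearMap.mul_apply, ContinuousLinearMap.star_eq_adjoint,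
    ContinuousLinearMap.adjoint_inner_right, inner_self_eq_zero] at h0
  rw [← hSS, ContinuousLinearMap.mul_apply, h0, map_zero]

end

/-- **Core lemma.** If `ι` contains an index `e` with `σ e = id` and all symmetrised products
have variance zero at the unit vector `ξ`, then `B₀` has a character. -/
theorem exists_character_of_variance_zero (θ : ℕ → B₀ →⋆ₐ[ℂ] (H →L[ℂ] H))
    (hθ : ∀ p q, p ≠ q → ∀ x y, Commute (θ p x) (θ q y))
    (σ : ι → B₀ → B₀) (e : ι) (he : ∀ b, σ e b = b) (ξ : H) (hξ : ‖ξ‖ = 1)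
    (hvar : ∀ b l, ⟪(∑ g, diffProd θ (fun g => σ g b) l g) ξ,
        (∑ g, diffProd θ (fun g => σ g b) l g) ξ⟫_ℂ =
      (starRingEnd ℂ) ⟪ξ, (∑ g, diffProd θ (fun g => σ g b) l g) ξ⟫_ℂ *
        ⟪ξ, (∑ g, diffProd θ (fun g => σ g b) l g) ξ⟫_ℂ) :
    Nonempty (B₀ →⋆ₐ[ℂ] ℂ) := by
  have hex : ∀ x : B₀, ∃ T, WLim (fun n => θ n x) T := fun x =>
    exists_wLim _ ‖x‖ fun n => NonUnitalStarAlgHom.norm_apply_le (θ n) x
  choose L hL using hex
  have hstar : ∀ x, L (star x) = star (L x) := fun x =>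
    (hL (star x)).unique (by simpa [map_star] using (hL x).star)
  have hone : L 1 = 1 := (hL 1).unique (by simpa using WLim.const (1 : H →L[ℂ] H))
  have hadd : ∀ x y, L (x + y) = L x + L y := fun x y =>
    (hL (x + y)).unique (by simpa using (hL x).add (hL y))
  have hsmul : ∀ (c : ℂ) x, L (c • x) = c • L x := fun c x =>
    (hL (c • x)).unique (by simpa using (hL x).smul c)
  have hcomm : ∀ u ∈ Set.range L, ∀ v ∈ Set.range L, u * v = v * u := by
    rintro _ ⟨x, rfl⟩ _ ⟨y, rfl⟩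
    exact commute_weakLim_weakLim θ hθ hL x y
  have hcomm' : ∀ u ∈ Set.range L, ∀ v ∈ Set.range L, u * star v = star v * u := by
    rintro _ ⟨x, rfl⟩ _ ⟨y, rfl⟩
    rw [← hstar]
    exact commute_weakLim_weakLim θ hθ hL x (star y)
  set A₀ := StarAlgebra.adjoin ℂ (Set.range L)
  letI : CommRing A₀ := StarAlgebra.adjoinCommRingOfComm ℂ hcomm hcomm'
  set 𝒜 := A₀.topologicalClosure
  letI : CommCStarAlgebra 𝒜 :=
    { StarSubalgebra.cstarAlgebra 𝒜 (h_closed := A₀.isClosed_topologicalClosure) with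
      mul_comm := (StarSubalgebra.commRingTopologicalClosure A₀ mul_comm).mul_comm }
  have hmem : ∀ x, L x ∈ 𝒜 := fun x =>
    A₀.le_topologicalClosure (StarAlgebra.subset_adjoin ℂ _ ⟨x, rfl⟩)
  have hcov : ∀ x y, cov L x y ∈ 𝒜 := fun x y =>
    SMulMemClass.smul_mem _ (sub_mem (hmem _) (mul_mem (hmem _) (hmem _)))
  let T : B₀ × ℕ → 𝒜 := fun bk => ∑ g, ∑ h, (⟨_, hcov (σ g bk.1) (σ h bk.1)⟩ : 𝒜) ^ (bk.2 + 1)
  have hT : ∀ bk, ((T bk : 𝒜) : H →L[ℂ] H) ξ = 0 := fun bk => by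
    have := momentSum_apply_eq_zero θ hθ hL (fun g => σ g bk.1) ξ (hvar bk.1) bk.2
    simpa [T, momentSum, diffProd] using this
  let I : Ideal 𝒜 :=
    { carrier := {x | (x : H →L[ℂ] H) ξ = 0}
      zero_mem' := by simp
      add_mem' := fun {x y} hx hy => by simp_all
      smul_mem' := fun c x hx => by simp_all [ContinuousLinearMap.mul_apply] }
  have hI : I ≠ ⊤ := fun h => by
    have h1 : ((1 : 𝒜) : H →L[ℂ] H) ξ = 0 := (Ideal.eq_top_iff_one I).1 h
    simp [show ξ = 0 by simpa using h1] at hξ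
  obtain ⟨M, hM, hIM⟩ := Ideal.exists_le_maximal I hI
  set κ : WeakDual.characterSpace ℂ 𝒜 := M.toCharacterSpace with hκ
  let ω : B₀ → ℂ := fun x => κ ⟨L x, hmem x⟩
  have hωadd : ∀ x y, ω (x + y) = ω x + ω y := fun x y => by
    rw [← map_add]
    exact congrArg κ (Subtype.ext (hadd x y))
  have hωsmul : ∀ (c : ℂ) x, ω (c • x) = c * ω x := fun c x => by
    rw [← smul_eq_mul, ← map_smul]
    exact congrArg κ (Subtype.ext (hsmul c x))
  have hω1 : ω 1 = 1 := by
    rw [← map_one κ]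
    exact congrArg κ (Subtype.ext hone)
  have hωstar : ∀ x, ω (star x) = star (ω x) := fun x => by
    rw [← map_star κ]
    exact congrArg κ (Subtype.ext (hstar x))
  have hωcov : ∀ x y, κ (⟨_, hcov x y⟩ : 𝒜) = 2 * (ω (star x * y) - ω (star x) * ω y) :=
    fun x y => by
      rw [← map_mul, ← map_sub, ← smul_eq_mul, ← map_smul]
      exact congrArg κ (Subtype.ext rfl)
  have hzero : ∀ x, ω (star x * x) = ω (star x) * ω x := fun x => by
    have hsum : ∀ k : ℕ, ∑ gh : ι × ι,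
        (κ (⟨_, hcov (σ gh.1 x) (σ gh.2 x)⟩ : 𝒜)) ^ (k + 1) = 0 := fun k => by
      have := Ideal.toCharacterSpace_apply_eq_zero_of_mem (I := M) (a := T (x, k)) (hIM (hT _))
      simp only [T, map_sum, map_pow] at this
      simpa [Fintype.sum_prod_type, hκ] using this
    have := eq_zero_of_powerSum_eq_zero _ hsum (e, e)
    simpa [hωcov, he, sub_eq_zero] using this
  have hsesq : ∀ x y, ω (star x * y) = ω (star x) * ω y := fun x y => by
    have h1 := hzero (x + y)
    have h2 := hzero (x + Complex.I • y)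
    simp only [star_add, star_smul, add_mul, mul_add, smul_mul_assoc, mul_smul_comm, hωadd,
      hωsmul, hzero, smul_smul, Complex.star_def, Complex.conj_I] at h1 h2
    linear_combination (1 / 2 : ℂ) * h1 - (Complex.I / 2) * h2 + (1 / 2 : ℂ) *
      ((ω (star x * y) - ω (star x) * ω y) - (ω (star y * x) - ω (star y) * ω x)) * Complex.I_sq
  have hmul : ∀ x y, ω (x * y) = ω x * ω y := fun x y => by
    simpa using hsesq (star x) y
  exact ⟨{ toFun := ω
           map_one' := hω1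
           map_mul' := hmul
           map_zero' := by simpa using hωsmul 0 0
           map_add' := hωadd
           commutes' := fun r => by simp [Algebra.algebraMap_eq_smul_one, hωsmul, hω1]
           map_star' := hωstar }⟩

end Vale.Agent.P095
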