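import Vale.Agent.P101.Copies
import Vale.Agent.P095.Core

/-!
P095: the fixed point algebra of a finite group action on an algebra without characters
(with equivariant copies) has no characters, and again has copies.
-/

open Filter
open scoped InnerProductSpace ComplexOrder

namespace Vale.Agent.P095

open Vale.Agent.P101

variable {B : Type*} [CStarAlgebra B] {G : Type*} [Group G]

theorem continuous_starAlgHom {A C : Type*} [CStarAlgebra A] [CStarAlgebra C]
    (f : A →⋆ₐ[ℂ] C) : Continuous f :=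
  AddMonoidHomClass.continuous_of_bound f 1 fun x => by
    simpa using NonUnitalStarAlgHom.norm_apply_le f x

/-- An action of `G` by unital star endomorphisms (hence automorphisms). -/
structure IsAction (ρ : G → B →⋆ₐ[ℂ] B) : Prop where
  one : ∀ x, ρ 1 x = x
  mul : ∀ g h x, ρ (g * h) x = ρ g (ρ h x)

/-- The fixed point algebra. -/
def fixedAlg (ρ : G → B →⋆ₐ[ℂ] B) : StarSubalgebra ℂ B where
  carrier := {x | ∀ g, ρ g x = x}
  mul_mem' := fun hx hy g => by rw [map_mul, hx g, hy g]
  add_mem' := fun hx hy g => by rw [map_add, hx g, hy g]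
  algebraMap_mem' := fun r g => AlgHomClass.commutes (ρ g) r
  star_mem' := fun hx g => by rw [map_star, hx g]

theorem isClosed_fixedAlg (ρ : G → B →⋆ₐ[ℂ] B) : IsClosed (fixedAlg ρ : Set B) := by
  have : (fixedAlg ρ : Set B) = ⋂ g, {x | ρ g x = x} := by
    ext x
    simp [fixedAlg]
  rw [this]
  exact isClosed_iInter fun g => isClosed_eq (continuous_starAlgHom (ρ g)) continuous_id

noncomputable instance fixedAlg.instCStarAlgebra (ρ : G → B →⋆ₐ[ℂ] B) :
    CStarAlgebra (fixedAlg ρ) :=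
  StarSubalgebra.cstarAlgebra _ (h_closed := isClosed_fixedAlg ρ)

/-- Invariant finite sets can be copied equivariantly into the commutant of a finite set. -/
def HasEquivariantCopies (ρ : G → B →⋆ₐ[ℂ] B) : Prop :=
  ∀ F S : Finset B, (∀ g, ∀ x ∈ F, ρ g x ∈ F) →
    ∃ φ : cstarGen (F : Set B) →⋆ₐ[ℂ] B, (∀ x, ∀ b ∈ S, Commute (φ x) b) ∧
      ∀ g, ∀ (x : cstarGen (F : Set B)) (h : ρ g (x : B) ∈ cstarGen (F : Set B)),
        ρ g (φ x) = φ ⟨ρ g (x : B), h⟩

theorem map_mem_cstarGen {s t : Set B} (f : B →⋆ₐ[ℂ] B) (hf : ∀ x ∈ s, f x ∈ t) {x : B}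
    (hx : x ∈ cstarGen s) : f x ∈ cstarGen t := by
  have h1 : StarAlgebra.adjoin ℂ s ≤ (cstarGen t).comap f :=
    StarAlgebra.adjoin_le fun y hy => mem_cstarGen_of_mem (hf y hy)
  exact closure_minimal h1 ((StarSubalgebra.isClosed_topologicalClosure _).preimage
    (continuous_starAlgHom f)) hx

theorem hasCopies_fixedAlg {ρ : G → B →⋆ₐ[ℂ] B} (hρ : HasEquivariantCopies ρ) :
    HasCopies (fixedAlg ρ) := by
  classical
  intro F S
  have hF : ∀ g, ∀ x ∈ F.image (Subtype.val : fixedAlg ρ → B),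
      ρ g x ∈ F.image (Subtype.val : fixedAlg ρ → B) := fun g x hx => by
    obtain ⟨y, -, rfl⟩ := Finset.mem_image.1 hx
    rwa [y.2 g]
  obtain ⟨φ, hcomm, hequi⟩ := hρ (F.image Subtype.val) (S.image Subtype.val) hF
  have hmem : ∀ x : cstarGen (F : Set (fixedAlg ρ)),
      ((x : fixedAlg ρ) : B) ∈ cstarGen ((F.image Subtype.val : Finset B) : Set B) := by
    intro x
    have h1 : StarAlgebra.adjoin ℂ (F : Set (fixedAlg ρ)) ≤
        (cstarGen ((F.image Subtype.val : Finset B) : Set B)).comap (fixedAlg ρ).subtype :=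
      StarAlgebra.adjoin_le fun y hy =>
        mem_cstarGen_of_mem (Finset.mem_coe.2 (Finset.mem_image_of_mem _ hy))
    exact closure_minimal h1 ((StarSubalgebra.isClosed_topologicalClosure _).preimage
      continuous_subtype_val) x.2
  have hfix : ∀ x : cstarGen (F : Set (fixedAlg ρ)), φ ⟨_, hmem x⟩ ∈ fixedAlg ρ := by
    intro x g
    rw [hequi g ⟨_, hmem x⟩ (by simpa [(x : fixedAlg ρ).2 g] using hmem x)]
    exact congrArg φ (Subtype.ext ((x : fixedAlg ρ).2 g))
  refine ⟨{ toFun := fun x => ⟨_, hfix x⟩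
            map_one' := Subtype.ext (map_one φ)
            map_mul' := fun x y => Subtype.ext (map_mul φ ⟨_, hmem x⟩ ⟨_, hmem y⟩)
            map_zero' := Subtype.ext (map_zero φ)
            map_add' := fun x y => Subtype.ext (map_add φ ⟨_, hmem x⟩ ⟨_, hmem y⟩)
            commutes' := fun r => Subtype.ext (AlgHomClass.commutes φ r)
            map_star' := fun x => Subtype.ext (map_star φ ⟨_, hmem x⟩) }, fun x b hb => ?_⟩
  exact Subtype.ext (hcomm ⟨_, hmem x⟩ b (Finset.mem_image_of_mem _ hb)).eq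

/-- Pairwise commuting equivariant copies of a finitely generated invariant subalgebra. -/
theorem exists_seq_copies {ρ : G → B →⋆ₐ[ℂ] B} (hρ : HasEquivariantCopies ρ) (F : Finset B)
    (hF : ∀ g, ∀ x ∈ F, ρ g x ∈ F) :
    ∃ φ : ℕ → (cstarGen (F : Set B) →⋆ₐ[ℂ] B),
      (∀ p q, p ≠ q → ∀ x y, Commute (φ p x) (φ q y)) ∧
      ∀ n g, ∀ (x : cstarGen (F : Set B)) (h : ρ g (x : B) ∈ cstarGen (F : Set B)),
        ρ g (φ n x) = φ n ⟨ρ g (x : B), h⟩ := by
  classical
  choose f hf using fun S : Finset B => hρ F S hF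
  let gens : Finset (cstarGen (F : Set B)) :=
    F.attach.image fun x => ⟨x.1, mem_cstarGen_of_mem (Finset.mem_coe.2 x.2)⟩
  let next : Finset B → Finset B := fun S =>
    S ∪ gens.image (fun x => f S x) ∪ gens.image (fun x => star (f S x))
  let Sn : ℕ → Finset B := fun n => Nat.rec ∅ (fun _ S => next S) n
  have hmono : Monotone Sn := monotone_nat_of_le_succ fun n => by
    change Sn n ≤ next (Sn n)
    exact Finset.subset_union_left.trans Finset.subset_union_left
  refine ⟨fun n => f (Sn n), ?_, fun n g x h => (hf (Sn n)).2 g x h⟩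
  suffices hlt : ∀ p q, p < q → ∀ x y, Commute (f (Sn q) x) (f (Sn p) y) by
    intro p q hpq x y
    rcases hpq.lt_or_gt with h | h
    · exact (hlt p q h y x).symm
    · exact hlt q p h x y
  intro p q hpq x y
  have hgen : ∀ z ∈ gens, Commute (f (Sn q) x) (f (Sn p) z) ∧
      Commute (f (Sn q) x) (star (f (Sn p) z)) := fun z hz => by
    have hsub : next (Sn p) ⊆ Sn q := hmono hpq
    constructor
    · exact (hf (Sn q)).1 x _ (hsub (Finset.mem_union_left _ (Finset.mem_union_right _
        (Finset.mem_image_of_mem _ hz))))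
    · exact (hf (Sn q)).1 x _ (hsub (Finset.mem_union_right _ (Finset.mem_image_of_mem _ hz)))
  have h2 : ∀ u (hu : u ∈ StarAlgebra.adjoin ℂ (F : Set B)),
      Commute (f (Sn q) x) (f (Sn p) ⟨u, subset_closure hu⟩) ∧
        Commute (f (Sn q) x) (star (f (Sn p) ⟨u, subset_closure hu⟩)) := by
    intro u hu
    induction hu using StarAlgebra.adjoin_induction with
    | mem u hu =>
      exact hgen ⟨u, mem_cstarGen_of_mem hu⟩
        (Finset.mem_image.2 ⟨⟨u, Finset.mem_coe.1 hu⟩, Finset.mem_attach _ _, rfl⟩)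
    | algebraMap r =>
      have hr : f (Sn p) ⟨_, subset_closure (algebraMap_mem (StarAlgebra.adjoin ℂ (F : Set B)) r)⟩ =
          algebraMap ℂ B r := AlgHomClass.commutes (f (Sn p)) r
      rw [hr, ← algebraMap_star_comm]
      exact ⟨Algebra.commute_algebraMap_right r _, Algebra.commute_algebraMap_right _ _⟩
    | add u v hu hv ihu ihv =>
      have he : f (Sn p) ⟨u + v, subset_closure (add_mem hu hv)⟩ =
          f (Sn p) ⟨u, subset_closure hu⟩ + f (Sn p) ⟨v, subset_closure hv⟩ :=
        map_add (f (Sn p)) ⟨u, subset_closure hu⟩ ⟨v, subset_closure hv⟩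
      rw [he, star_add]
      exact ⟨ihu.1.add_right ihv.1, ihu.2.add_right ihv.2⟩
    | mul u v hu hv ihu ihv =>
      have he : f (Sn p) ⟨u * v, subset_closure (mul_mem hu hv)⟩ =
          f (Sn p) ⟨u, subset_closure hu⟩ * f (Sn p) ⟨v, subset_closure hv⟩ :=
        map_mul (f (Sn p)) ⟨u, subset_closure hu⟩ ⟨v, subset_closure hv⟩
      rw [he, star_mul]
      exact ⟨ihu.1.mul_right ihv.1, ihv.2.mul_right ihu.2⟩
    | star u hu ih =>
      have he : f (Sn p) ⟨star u, subset_closure (star_mem hu)⟩ =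
          star (f (Sn p) ⟨u, subset_closure hu⟩) :=
        map_star (f (Sn p)) ⟨u, subset_closure hu⟩
      rw [he, star_star]
      exact ⟨ih.2, ih.1⟩
  have hd : DenseRange (Set.inclusion
      (subset_closure : (StarAlgebra.adjoin ℂ (F : Set B) : Set B) ⊆ cstarGen (F : Set B))) :=
    (denseRange_inclusion_iff _).2 subset_rfl
  refine hd.induction_on y ?_ fun u => (h2 u.1 u.2).1
  exact isClosed_eq (continuous_const.mul (continuous_starAlgHom (f (Sn p))))
    ((continuous_starAlgHom (f (Sn p))).mul continuous_const)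

/-- The product of differences of copies inside `B`. -/
noncomputable def elemProd {B₀ : Type*} [CStarAlgebra B₀] {ι : Type*}
    (φ : ℕ → B₀ →⋆ₐ[ℂ] B) (a : ι → B₀) : List (ℕ × ℕ) → ι → B
  | [], _ => 1
  | (p, q) :: l, g => (φ p (a g) - φ q (a g)) * elemProd φ a l g

section

variable [Fintype G] {ρ : G → B →⋆ₐ[ℂ] B}

/-- The conditional expectation onto the fixed point algebra. -/
noncomputable def average (hact : IsAction ρ) : B →ₗ[ℂ] fixedAlg ρ where
  toFun x := ⟨(Fintype.card G : ℂ)⁻¹ • ∑ g, ρ g x, fun h => by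
    rw [map_smul, map_sum]
    congr 1
    exact Fintype.sum_equiv (Equiv.mulLeft h) _ _ fun g => (hact.mul h g x).symm⟩
  map_add' x y := Subtype.ext (by simp [Finset.sum_add_distrib])
  map_smul' c x := Subtype.ext (by simp [← Finset.smul_sum, smul_comm c])

theorem average_of_fixed (hact : IsAction ρ) (x : fixedAlg ρ) : average hact (x : B) = x := by
  refine Subtype.ext ?_
  change (Fintype.card G : ℂ)⁻¹ • ∑ g, ρ g (x : B) = x
  rw [Finset.sum_congr rfl fun g _ => x.2 g, Finset.sum_const, Finset.card_univ,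
    ← Nat.cast_smul_eq_nsmul ℂ, smul_smul,
    inv_mul_cancel₀ (Nat.cast_ne_zero.2 Fintype.card_ne_zero), one_smul]

/-- **The fixed point algebra has no characters.** -/
theorem isEmpty_character_fixedAlg (hact : IsAction ρ) (hcop : HasEquivariantCopies ρ)
    (h : IsEmpty (B →⋆ₐ[ℂ] ℂ)) : IsEmpty (fixedAlg ρ →⋆ₐ[ℂ] ℂ) := by
  classical
  obtain ⟨m, N, gg, l₀, a, c, d, -, hid⟩ := exists_commutator_identity h
  let F₀ : Finset B := Finset.univ.image gg ∪ Finset.univ.image a ∪ Finset.univ.image c ∪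
    Finset.univ.image d
  let F : Finset B := (Finset.univ ×ˢ F₀).image fun p => ρ p.1 p.2
  have hF : ∀ g, ∀ x ∈ F, ρ g x ∈ F := by
    intro g x hx
    obtain ⟨⟨h', y⟩, hy, rfl⟩ := Finset.mem_image.1 hx
    exact Finset.mem_image.2 ⟨(g * h', y), Finset.mem_product.2
      ⟨Finset.mem_univ _, (Finset.mem_product.1 hy).2⟩, hact.mul g h' y⟩
  have hF₀ : ∀ y ∈ F₀, y ∈ cstarGen (F : Set B) := fun y hy =>
    mem_cstarGen_of_mem (Finset.mem_coe.2 (Finset.mem_image.2
      ⟨(1, y), Finset.mem_product.2 ⟨Finset.mem_univ _, hy⟩, hact.one y⟩))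
  have hB₀ : IsEmpty (cstarGen (F : Set B) →⋆ₐ[ℂ] ℂ) := ⟨fun ψ => by
    let g' : Fin m → cstarGen (F : Set B) := fun i => ⟨gg i, hF₀ _ (by simp [F₀])⟩
    let a' : Fin N → cstarGen (F : Set B) := fun i => ⟨a i, hF₀ _ (by simp [F₀])⟩
    let c' : Fin N → cstarGen (F : Set B) := fun i => ⟨c i, hF₀ _ (by simp [F₀])⟩
    let d' : Fin N → cstarGen (F : Set B) := fun i => ⟨d i, hF₀ _ (by simp [F₀])⟩
    have he : ∑ t, a' t * (g' (l₀ t) * c' t - c' t * g' (l₀ t)) * d' t = 1 := by
      refine Subtype.ext ?_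
      simpa [g', a', c', d'] using hid
    have := congrArg ψ he
    simp only [map_sum, map_mul, map_sub, map_one] at this
    rw [Finset.sum_eq_zero fun t _ => by ring] at this
    exact zero_ne_one this⟩
  obtain ⟨φ, hφc, hφe⟩ := exists_seq_copies hcop F hF
  have hσ : ∀ g (x : cstarGen (F : Set B)), ρ g (x : B) ∈ cstarGen (F : Set B) :=
    fun g x => map_mem_cstarGen (ρ g) (fun y hy => Finset.mem_coe.2 (hF g y hy)) x.2
  let σ : G → cstarGen (F : Set B) → cstarGen (F : Set B) := fun g x => ⟨ρ g x, hσ g x⟩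
  refine ⟨fun χ => ?_⟩
  letI : PartialOrder B := CStarAlgebra.spectralOrder B
  letI : StarOrderedRing B := CStarAlgebra.spectralOrderedRing B
  have hnn : ∀ x : B, 0 ≤ x → 0 ≤ χ (average hact x) := by
    intro x hx
    have hpos : ∀ g (y : B), 0 ≤ y → 0 ≤ ρ g y := fun g y hy => by
      rw [← CFC.sqrt_mul_sqrt_self y hy, map_mul]
      exact ((IsSelfAdjoint.of_nonneg (CFC.sqrt_nonneg y)).map (ρ g)).mul_self_nonneg
    have hE : 0 ≤ ((average hact x : fixedAlg ρ) : B) := by
      change 0 ≤ (Fintype.card G : ℂ)⁻¹ • ∑ g, ρ g x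
      have : (Fintype.card G : ℂ)⁻¹ • ∑ g, ρ g x =
          ((Fintype.card G : ℝ)⁻¹ : ℝ) • ∑ g, ρ g x := by
        rw [← Complex.coe_smul]
        simp
      rw [this]
      exact smul_nonneg (by positivity) (Finset.sum_nonneg fun g _ => hpos g x hx)
    set w := CFC.sqrt ((average hact x : fixedAlg ρ) : B) with hw
    have hwmem : w ∈ fixedAlg ρ := fun g => by
      refine (CFC.sqrt_unique ?_ (hpos g w (CFC.sqrt_nonneg _))).symm
      rw [← map_mul, hw, CFC.sqrt_mul_sqrt_self _ hE]
      exact (average hact x).2 g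
    have hww : average hact x = star (⟨w, hwmem⟩ : fixedAlg ρ) * ⟨w, hwmem⟩ := by
      refine Subtype.ext ?_
      change _ = star w * w
      rw [(IsSelfAdjoint.of_nonneg (CFC.sqrt_nonneg _)).star_eq, hw, CFC.sqrt_mul_sqrt_self _ hE]
    rw [hww, map_mul, map_star]
    exact star_mul_self_nonneg _
  let f : B →ₚ[ℂ] ℂ := PositiveLinearMap.mk₀ (χ.toAlgHom.toLinearMap ∘ₗ average hact) hnn
  have hf : ∀ x, f x = χ (average hact x) := fun _ => rfl
  set π := f.gnsStarAlgHom with hπ
  let ξ : f.GNS := ((f.toPreGNS 1 : f.PreGNS) : f.GNS)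
  have hinner : ∀ x y : B, ⟪π x ξ, π y ξ⟫_ℂ = f (star x * y) := fun x y => by
    simp [hπ, ξ, UniformSpace.Completion.inner_coe, PositiveLinearMap.preGNS_inner_def,
      PositiveLinearMap.gnsNonUnitalStarAlgHom_apply_coe]
  have hξ1 : π 1 ξ = ξ := by rw [map_one]; rfl
  have hone : f 1 = 1 := by
    rw [hf, ← OneMemClass.coe_one (fixedAlg ρ), average_of_fixed hact, map_one]
  have hξ : ‖ξ‖ = 1 := by
    have h11 := hinner 1 1
    rw [hξ1, star_one, one_mul, hone, inner_self_eq_norm_sq_to_K] at h11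
    have h12 : ‖ξ‖ ^ 2 = 1 := by
      have := congrArg Complex.re h11
      simpa [← Complex.ofReal_pow] using this
    exact (pow_eq_one_iff_of_nonneg (norm_nonneg _) two_ne_zero).1 h12
  have hmap : ∀ b (l : List (ℕ × ℕ)) (g : G),
      diffProd (fun n => π.comp (φ n)) (fun g => σ g b) l g =
        π (elemProd φ (fun g => σ g b) l g) := by
    intro b l g
    induction l with
    | nil => simp [diffProd, elemProd]
    | cons pq l ih =>
      obtain ⟨p, q⟩ := pq
      simp [diffProd, elemProd, ih]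
  have hfix : ∀ b l, (∑ g, elemProd φ (fun g => σ g b) l g) ∈ fixedAlg ρ := by
    intro b l k
    have hstep : ∀ g, ρ k (elemProd φ (fun g => σ g b) l g) =
        elemProd φ (fun g => σ g b) l (k * g) := by
      intro g
      induction l with
      | nil => simp [elemProd]
      | cons pq l ih =>
        obtain ⟨p, q⟩ := pq
        have he : ∀ n, ρ k (φ n (σ g b)) = φ n (σ (k * g) b) := fun n => by
          rw [hφe n k (σ g b) (hσ k _)]
          exact congrArg (φ n) (Subtype.ext (hact.mul k g (b : B)).symm)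
        simp only [elemProd, map_mul, map_sub, ih, he]
    rw [map_sum]
    exact Fintype.sum_equiv (Equiv.mulLeft k) _ _ fun g => hstep g
  have hvar : ∀ b l, ⟪(∑ g, diffProd (fun n => π.comp (φ n)) (fun g => σ g b) l g) ξ,
        (∑ g, diffProd (fun n => π.comp (φ n)) (fun g => σ g b) l g) ξ⟫_ℂ =
      (starRingEnd ℂ) ⟪ξ, (∑ g, diffProd (fun n => π.comp (φ n)) (fun g => σ g b) l g) ξ⟫_ℂ *
        ⟪ξ, (∑ g, diffProd (fun n => π.comp (φ n)) (fun g => σ g b) l g) ξ⟫_ℂ := by
    intro b l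
    simp only [hmap, ← map_sum]
    set X : fixedAlg ρ := ⟨_, hfix b l⟩ with hX
    have h1 : f (star (X : B) * X) = star (χ X) * χ X := by
      rw [hf, ← StarMemClass.coe_star, ← MulMemClass.coe_mul, average_of_fixed hact, map_mul,
        map_star]
    have h2 : ⟪ξ, π (X : B) ξ⟫_ℂ = χ X := by
      have := hinner 1 (X : B)
      rw [hξ1, star_one, one_mul, hf, average_of_fixed hact] at this
      exact this
    rw [show (∑ g, elemProd φ (fun g => σ g b) l g) = (X : B) from rfl, hinner, h1, h2]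
    rfl
  obtain ⟨ψ⟩ := exists_character_of_variance_zero (fun n => π.comp (φ n))
    (fun p q hpq x y => (hφc p q hpq x y).map π) σ (1 : G)
    (fun b => Subtype.ext (hact.one (b : B))) ξ hξ hvar
  exact hB₀.false ψ

end

end Vale.Agent.P095
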