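import Vale.Agent.P101.Fomega.Instances
import Vale.Agent.P095.Fixed

/-! P095: the action induced on `F_ω(A)` by an action on `A`. -/

open Filter Topology BoundedContinuousFunction

namespace Vale.Agent.P095

open Vale.Agent.P101

variable {A : Type*} [CStarAlgebra A] {ω : Ultrafilter ℕ} {G : Type*} [Group G]

/-- Pointwise application of a star automorphism to bounded sequences. -/
noncomputable def seqMap (f : A →⋆ₐ[ℂ] A) (x : ℕ →ᵇ A) : ℕ →ᵇ A :=
  .ofNormedAddCommGroupDiscrete (fun n => f (x n)) ‖x‖ fun n =>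
    (NonUnitalStarAlgHom.norm_apply_le f (x n)).trans (x.norm_coe_le_norm n)

@[simp] theorem seqMap_apply (f : A →⋆ₐ[ℂ] A) (x : ℕ →ᵇ A) (n : ℕ) : seqMap f x n = f (x n) := rfl

/-- An action on `A`, as a monoid hom into star automorphisms. -/
noncomputable def autHom (α : G → A ≃⋆ₐ[ℂ] A) (g : G) : A →⋆ₐ[ℂ] A :=
  { toFun := α g
    map_one' := map_one (α g)
    map_mul' := map_mul (α g)
    map_zero' := map_zero (α g)
    map_add' := map_add (α g)
    commutes' := fun r => by
      simp [Algebra.algebraMap_eq_smul_one, map_smul]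
    map_star' := map_star (α g) }

theorem seqMap_mem_centralSeq (α : A ≃⋆ₐ[ℂ] A) (f : A →⋆ₐ[ℂ] A) (hf : ∀ a, f a = α a)
    {x : ℕ →ᵇ A} (hx : x ∈ centralSeq A ω) : seqMap f x ∈ centralSeq A ω := by
  intro a
  have := ((continuous_starAlgHom f).tendsto 0).comp (hx (α.symm a))
  rw [map_zero] at this
  refine this.congr fun n => ?_
  simp [Function.comp, hf, map_sub, map_mul]

/-- The endomorphism of central sequences induced by an automorphism. -/
noncomputable def centralMap (α : G → A ≃⋆ₐ[ℂ] A) (g : G) :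
    centralSeq A ω →⋆ₐ[ℂ] centralSeq A ω where
  toFun x := ⟨seqMap (autHom α g) x, seqMap_mem_centralSeq (α g) _ (fun _ => rfl) x.2⟩
  map_one' := Subtype.ext (BoundedContinuousFunction.ext fun n => map_one (autHom α g))
  map_mul' x y := Subtype.ext (BoundedContinuousFunction.ext fun n =>
    map_mul (autHom α g) ((x : ℕ →ᵇ A) n) ((y : ℕ →ᵇ A) n))
  map_zero' := Subtype.ext (BoundedContinuousFunction.ext fun n => map_zero (autHom α g))
  map_add' x y := Subtype.ext (BoundedContinuousFunction.ext fun n =>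
    map_add (autHom α g) ((x : ℕ →ᵇ A) n) ((y : ℕ →ᵇ A) n))
  commutes' r := Subtype.ext (BoundedContinuousFunction.ext fun n =>
    AlgHomClass.commutes (autHom α g) r)
  map_star' x := Subtype.ext (BoundedContinuousFunction.ext fun n =>
    map_star (autHom α g) ((x : ℕ →ᵇ A) n))

theorem centralMap_apply (α : G → A ≃⋆ₐ[ℂ] A) (g : G) (x : centralSeq A ω) (n : ℕ) :
    ((centralMap α g x : centralSeq A ω) : ℕ →ᵇ A) n = α g ((x : ℕ →ᵇ A) n) := rfl

theorem centralMap_mem_nullIdeal (α : G → A ≃⋆ₐ[ℂ] A) (g : G) {x : centralSeq A ω}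
    (hx : x ∈ nullIdeal A ω) : centralMap α g x ∈ nullIdeal A ω :=
  squeeze_zero (fun _ => norm_nonneg _)
    (fun n => NonUnitalStarAlgHom.norm_apply_le (autHom α g) ((x : ℕ →ᵇ A) n)) hx

/-- The action induced on the central sequence algebra: `[x_n] ↦ [α_g x_n]`. -/
noncomputable def fomegaAct (α : G → A ≃⋆ₐ[ℂ] A) (g : G) :
    Fomega A ω →⋆ₐ[ℂ] Fomega A ω :=
  let f : Fomega A ω →+* Fomega A ω := Ideal.Quotient.lift _
    ((Ideal.Quotient.mk (nullIdeal A ω)).comp ((centralMap α g).toAlgHom.toRingHom))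
    fun _ hx => Ideal.Quotient.eq_zero_iff_mem.2 (centralMap_mem_nullIdeal α g hx)
  { f with
    commutes' := fun r => congrArg (Ideal.Quotient.mk (nullIdeal A ω))
      (AlgHomClass.commutes (centralMap (ω := ω) α g) r)
    map_star' := fun x => by
      obtain ⟨y, rfl⟩ := Ideal.Quotient.mk_surjective x
      exact congrArg (Ideal.Quotient.mk (nullIdeal A ω)) (map_star (centralMap α g) y) }

theorem fomegaAct_mk (α : G → A ≃⋆ₐ[ℂ] A) (g : G) (x : centralSeq A ω) :
    fomegaAct α g (fomegaMk x) = fomegaMk (centralMap α g x) := rfl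

theorem isAction_fomegaAct {α : G → A ≃⋆ₐ[ℂ] A} (h1 : ∀ a, α 1 a = a)
    (hmul : ∀ g h a, α (g * h) a = α g (α h a)) :
    IsAction (fomegaAct (ω := ω) α) where
  one x := by
    obtain ⟨y, rfl⟩ := Ideal.Quotient.mk_surjective x
    exact congrArg (Ideal.Quotient.mk (nullIdeal A ω))
      (Subtype.ext (BoundedContinuousFunction.ext fun n => h1 _))
  mul g h x := by
    obtain ⟨y, rfl⟩ := Ideal.Quotient.mk_surjective x
    exact congrArg (Ideal.Quotient.mk (nullIdeal A ω))
      (Subtype.ext (BoundedContinuousFunction.ext fun n => hmul g h _))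

end Vale.Agent.P095
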