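import Vale.Agent.P095.Action

/-! P095: passing from finite subgroups to a countable group by a diagonal argument. -/

open Filter Topology BoundedContinuousFunction

namespace Vale.Agent.P095

open Vale.Agent.P101

variable {A : Type*} [CStarAlgebra A] {ω : Ultrafilter ℕ} {G : Type*} [Group G]

/-- A null class is represented by a sequence tending to zero. -/
theorem eventually_small_of_mk_eq_zero {x : centralSeq A ω} (hx : fomegaMk x = 0) {ε : ℝ}
    (hε : 0 < ε) : ∀ᶠ n in (ω : Filter ℕ), ‖(x : ℕ →ᵇ A) n‖ < ε :=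
  eventually_norm_lt_of_norm_mk_lt x (by
    rw [show Ideal.Quotient.mk (nullIdeal A ω) x = 0 from hx, norm_zero]
    exact hε)

theorem mk_eq_zero_of_tendsto {x : centralSeq A ω}
    (hx : Tendsto (fun n => ‖(x : ℕ →ᵇ A) n‖) ω (𝓝 0)) : fomegaMk x = 0 :=
  Ideal.Quotient.eq_zero_iff_mem.2 hx

/-- Both members of a dimension drop pair are contractions. -/
theorem norm_le_one_of_dimDropPair {B : Type*} [CStarAlgebra B] {c s : B}
    (h : DimDropPair c s) : ‖c‖ ≤ 1 ∧ ‖s‖ ≤ 1 := by
  let := CStarAlgebra.spectralOrder B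
  have := CStarAlgebra.spectralOrderedRing B
  obtain ⟨-, h2, -⟩ := h
  have key : ∀ x y z : B, 0 ≤ y → 0 ≤ z → star x * x + y + z = 1 → ‖x‖ ≤ 1 := by
    intro x y z hy hz e
    have hle : star x * x ≤ 1 := by
      rw [← e, add_assoc]
      exact le_add_of_nonneg_right (add_nonneg hy hz)
    rw [← CStarAlgebra.norm_le_one_iff_of_nonneg _ (star_mul_self_nonneg _),
      CStarRing.norm_star_mul_self] at hle
    nlinarith [norm_nonneg x]
  exact ⟨key c (c * star c) (star s * s) (mul_star_self_nonneg c) (star_mul_self_nonneg s)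
      (by rw [h2]; abel),
    key s (star c * c) (c * star c) (star_mul_self_nonneg c) (mul_star_self_nonneg c)
      (by rw [h2]; abel)⟩

/-- A bounded diagonal sequence almost commuting with a dense sequence is central. -/
theorem mem_centralSeq_of_dense (hω : (ω : Filter ℕ) ≤ atTop) {a : ℕ → A} (ha : DenseRange a)
    {x : ℕ →ᵇ A}
    (hx : ∀ n, ∀ i ∈ Finset.range (n + 1), ‖x n * a i - a i * x n‖ < 1 / (n + 1)) :
    x ∈ centralSeq A ω := by
  intro b
  rw [Metric.tendsto_nhds]
  intro ε hε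
  obtain ⟨_, ⟨i, rfl⟩, hi⟩ :=
    Metric.mem_closure_iff.1 (ha b) (ε / (4 * (‖x‖ + 1))) (by positivity)
  filter_upwards [hω (eventually_ge_atTop i),
    (tendsto_one_div_add_atTop_nhds_zero_nat.mono_left hω).eventually_lt_const (half_pos hε)]
    with n hn hn'
  have h1 := hx n i (Finset.mem_range.2 (Nat.lt_succ_of_le hn))
  have h3 : ‖x n‖ * ‖b - a i‖ ≤ ε / 4 :=
    calc ‖x n‖ * ‖b - a i‖ ≤ (‖x‖ + 1) * (ε / (4 * (‖x‖ + 1))) := by
          rw [← dist_eq_norm]; gcongr; linarith [x.norm_coe_le_norm n]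
      _ = ε / 4 := by field_simp
  have e : x n * b - b * x n =
      x n * (b - a i) - (b - a i) * x n + (x n * a i - a i * x n) := by noncomm_ring
  rw [dist_zero_right]
  calc ‖x n * b - b * x n‖
      ≤ ‖x n‖ * ‖b - a i‖ + ‖b - a i‖ * ‖x n‖ + ‖x n * a i - a i * x n‖ := by
        rw [e]
        refine (norm_add_le _ _).trans (add_le_add ((norm_sub_le _ _).trans ?_) le_rfl)
        exact add_le_add (norm_mul_le _ _) (norm_mul_le _ _)
    _ < ε := by linarith [mul_comm ‖x n‖ ‖b - a i‖]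

/-- If for every finite set of group elements some dimension drop pair in `F_ω(A)` is fixed by
all of them, then some pair is fixed by the whole (countable) group. -/
theorem exists_fixed_dimDropPair_of_finite [TopologicalSpace.SeparableSpace A] [Countable G]
    (hω : (ω : Filter ℕ) ≤ atTop) (α : G → A ≃⋆ₐ[ℂ] A)
    (h : ∀ K : Finset G, ∃ c s : Fomega A ω, DimDropPair c s ∧
      ∀ g ∈ K, fomegaAct α g c = c ∧ fomegaAct α g s = s) :
    ∃ c s : Fomega A ω, DimDropPair c s ∧
      ∀ g, fomegaAct α g c = c ∧ fomegaAct α g s = s := by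
  classical
  obtain ⟨a, ha⟩ := TopologicalSpace.exists_dense_seq A
  obtain ⟨e, he⟩ := exists_surjective_nat G
  -- one lift and one index for every stage
  have hstage : ∀ n : ℕ, ∃ p q : A, ‖p‖ < 2 ∧ ‖q‖ < 2 ∧
      ‖p * p‖ < 1 / (n + 1) ∧ ‖star q * q - (1 - star p * p - p * star p)‖ < 1 / (n + 1) ∧
      ‖star p * p * q - q‖ < 1 / (n + 1) ∧
      (∀ i ∈ Finset.range (n + 1),
        ‖p * a i - a i * p‖ < 1 / (n + 1) ∧ ‖q * a i - a i * q‖ < 1 / (n + 1)) ∧
      ∀ i ∈ Finset.range (n + 1),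
        ‖α (e i) p - p‖ < 1 / (n + 1) ∧ ‖α (e i) q - q‖ < 1 / (n + 1) := by
    intro n
    have hn : (0 : ℝ) < 1 / (n + 1) := by positivity
    obtain ⟨c, s, hp, hfix⟩ := h ((Finset.range (n + 1)).image e)
    obtain ⟨hc1, hs1⟩ := norm_le_one_of_dimDropPair hp
    obtain ⟨C, rfl⟩ := Ideal.Quotient.mk_surjective c
    obtain ⟨S, rfl⟩ := Ideal.Quotient.mk_surjective s
    obtain ⟨hp1, hp2, hp3⟩ := hp
    have hcomm : ∀ (x : centralSeq A ω) (b : A), ∀ᶠ m in (ω : Filter ℕ),
        ‖(x : ℕ →ᵇ A) m * b - b * (x : ℕ →ᵇ A) m‖ < 1 / (n + 1) := fun x b =>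
      (x.2 b).norm.eventually_lt_const (by simpa using hn)
    have z1 : fomegaMk (C * C) = 0 := by rw [map_mul]; exact hp1
    have z2 : fomegaMk (star S * S - (1 - star C * C - C * star C)) = 0 := by
      simp only [map_sub, map_mul, map_star, map_one]
      exact sub_eq_zero.2 hp2
    have z3 : fomegaMk (star C * C * S - S) = 0 := by
      simp only [map_sub, map_mul, map_star]
      exact sub_eq_zero.2 hp3
    have z4 : ∀ g ∈ (Finset.range (n + 1)).image e,
        fomegaMk (centralMap α g C - C) = 0 ∧ fomegaMk (centralMap α g S - S) = 0 := by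
      intro g hg
      rw [map_sub, map_sub, ← fomegaAct_mk, ← fomegaAct_mk]
      exact ⟨sub_eq_zero.2 (hfix g hg).1, sub_eq_zero.2 (hfix g hg).2⟩
    obtain ⟨m, hm1, hm2, hm3, hm4, hm5, hm6, hm7⟩ :=
      ((eventually_norm_lt_of_norm_mk_lt C (show _ < (2 : ℝ) by linarith)).and
        ((eventually_norm_lt_of_norm_mk_lt S (show _ < (2 : ℝ) by linarith)).and
        ((eventually_small_of_mk_eq_zero z1 hn).and
        ((eventually_small_of_mk_eq_zero z2 hn).and
        ((eventually_small_of_mk_eq_zero z3 hn).and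
        ((((Finset.range (n + 1)).eventually_all).2 fun i _ =>
          (hcomm C (a i)).and (hcomm S (a i))).and
        (((Finset.range (n + 1)).eventually_all).2 fun i hi =>
          (eventually_small_of_mk_eq_zero (z4 _ (Finset.mem_image_of_mem e hi)).1 hn).and
            (eventually_small_of_mk_eq_zero
              (z4 _ (Finset.mem_image_of_mem e hi)).2 hn)))))))).exists
    exact ⟨(C : ℕ →ᵇ A) m, (S : ℕ →ᵇ A) m, hm1, hm2, hm3, hm4, hm5, hm6, hm7⟩
  choose p q hp hq h1 h2 h3 h4 h5 using hstage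
  let P : ℕ →ᵇ A := .ofNormedAddCommGroupDiscrete p 2 fun n => (hp n).le
  let Q : ℕ →ᵇ A := .ofNormedAddCommGroupDiscrete q 2 fun n => (hq n).le
  have hP : P ∈ centralSeq A ω := mem_centralSeq_of_dense hω ha fun n i hi => (h4 n i hi).1
  have hQ : Q ∈ centralSeq A ω := mem_centralSeq_of_dense hω ha fun n i hi => (h4 n i hi).2
  let P' : centralSeq A ω := ⟨P, hP⟩
  let Q' : centralSeq A ω := ⟨Q, hQ⟩
  have hlim : Tendsto (fun n : ℕ => (1 : ℝ) / (n + 1)) ω (𝓝 0) :=
    tendsto_one_div_add_atTop_nhds_zero_nat.mono_left hω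
  refine ⟨fomegaMk P', fomegaMk Q', ⟨?_, ?_, ?_⟩, fun g => ?_⟩
  · rw [← map_mul]
    exact mk_eq_zero_of_tendsto (squeeze_zero (fun _ => norm_nonneg _) (fun n => (h1 n).le) hlim)
  · refine sub_eq_zero.1 ?_
    simp only [← map_star, ← map_mul]
    rw [← map_one fomegaMk, ← map_sub, ← map_sub, ← map_sub]
    exact mk_eq_zero_of_tendsto (squeeze_zero (fun _ => norm_nonneg _) (fun n => (h2 n).le) hlim)
  · refine sub_eq_zero.1 ?_
    simp only [← map_star, ← map_mul, ← map_sub]
    exact mk_eq_zero_of_tendsto (squeeze_zero (fun _ => norm_nonneg _) (fun n => (h3 n).le) hlim)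
  · obtain ⟨i, rfl⟩ := he g
    have hev : ∀ᶠ n in (ω : Filter ℕ), i ∈ Finset.range (n + 1) :=
      Filter.Eventually.filter_mono hω
        ((eventually_ge_atTop i).mono fun n hn => Finset.mem_range.2 (Nat.lt_succ_of_le hn))
    constructor <;> (rw [← sub_eq_zero, fomegaAct_mk, ← map_sub]; refine mk_eq_zero_of_tendsto ?_)
    · exact squeeze_zero' (Eventually.of_forall fun _ => norm_nonneg _)
        (hev.mono fun n hn => (h5 n i hn).1.le) hlim
    · exact squeeze_zero' (Eventually.of_forall fun _ => norm_nonneg _)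
        (hev.mono fun n hn => (h5 n i hn).2.le) hlim

end Vale.Agent.P095
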