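import Vale.Agent.P095.Action

/-! P095: `F_ω(A)` has equivariant copies for finitely many induced automorphisms. -/

open Filter Topology BoundedContinuousFunction

namespace Vale.Agent.P095

open Vale.Agent.P101

variable {A : Type*} [CStarAlgebra A] {ω : Ultrafilter ℕ} {G : Type*} [Group G]

/-- Reindexing along `k` of a subalgebra of central sequences that stays central. -/
noncomputable def reindexHom {R₀ : StarSubalgebra ℂ (centralSeq A ω)} (k : ℕ → ℕ)
    (hC : R₀ ≤ (centralSeq A ω).comap ((reindex k).comp (centralSeq A ω).subtype)) :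
    R₀ →⋆ₐ[ℂ] Fomega A ω :=
  fomegaMk.comp ((((reindex k).comp (centralSeq A ω).subtype).comp R₀.subtype).codRestrict
    (centralSeq A ω) fun x => hC x.2)

theorem reindexHom_apply {R₀ : StarSubalgebra ℂ (centralSeq A ω)} (k : ℕ → ℕ)
    (hC : R₀ ≤ (centralSeq A ω).comap ((reindex k).comp (centralSeq A ω).subtype)) (x : R₀) :
    reindexHom k hC x = fomegaMk ⟨reindex k ((x : centralSeq A ω) : ℕ →ᵇ A), hC x.2⟩ := rfl

/-- The reindexed subalgebra commutes with finitely many elements and is dominated by the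
original one. -/
theorem exists_reindexHom [TopologicalSpace.SeparableSpace A] (hω : (ω : Filter ℕ) ≤ atTop)
    {Gs : Set (centralSeq A ω)} (hG : Gs.Finite) (hGs : ∀ g ∈ Gs, star g ∈ Gs)
    {Y : Set (centralSeq A ω)} (hY : Y.Finite) :
    ∃ k : ℕ → ℕ, ∃ hC : StarAlgebra.adjoin ℂ Gs ≤
        (centralSeq A ω).comap ((reindex k).comp (centralSeq A ω).subtype),
      (∀ x, ‖reindexHom k hC x‖ ≤ ‖fomegaMk (x : centralSeq A ω)‖) ∧
      ∀ x, ∀ y ∈ Y, Commute (reindexHom k hC x) (fomegaMk y) := by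
  obtain ⟨e, he⟩ := exists_seq_dense_adjoin hG hGs
  obtain ⟨k, hkC, hkN, hkY⟩ := exists_reindex hω hG hY e
  refine ⟨k, StarAlgebra.adjoin_le hkC, fun x => ?_, fun x y hy => ?_⟩
  · refine le_of_forall_pos_le_add fun ε hε => ?_
    obtain ⟨_, ⟨i, rfl⟩, hi⟩ := Metric.mem_closure_iff.1 (he x.2) (ε / 3) (by positivity)
    rw [reindexHom_apply]
    refine norm_mk_le_of_eventually _ ?_
    filter_upwards [hkN i (ε / 3) (by positivity)] with n hn
    change ‖((x : centralSeq A ω) : ℕ →ᵇ A) (k n)‖ ≤ ‖fomegaMk (x : centralSeq A ω)‖ + ε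
    rw [dist_eq_norm] at hi
    have h1 : ‖((x : centralSeq A ω) : ℕ →ᵇ A) (k n) - (e i : ℕ →ᵇ A) (k n)‖ ≤ ε / 3 :=
      (((x - e i : centralSeq A ω) : ℕ →ᵇ A).norm_coe_le_norm (k n)).trans hi.le
    have h2 : ‖Ideal.Quotient.mk (nullIdeal A ω) (e i) - fomegaMk (x : centralSeq A ω)‖ ≤ ε / 3 := by
      rw [norm_sub_rev]
      refine le_of_eq_of_le ?_
        ((Submodule.Quotient.norm_mk_le (nullIdeal A ω) ((x : centralSeq A ω) - e i)).trans hi.le)
      rfl
    linarith [norm_le_norm_add_norm_sub' (((x : centralSeq A ω) : ℕ →ᵇ A) (k n))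
      ((e i : ℕ →ᵇ A) (k n)),
      norm_le_norm_add_norm_sub' (Ideal.Quotient.mk (nullIdeal A ω) (e i))
        (fomegaMk (x : centralSeq A ω))]
  · obtain ⟨x, hx⟩ := x
    have hx' := mem_algebraAdjoin_of_mem_adjoin hGs hx
    induction hx' using Algebra.adjoin_induction with
    | mem g hg => exact Ideal.Quotient.eq.2 (hkY g hg y hy)
    | algebraMap r =>
      rw [show (⟨algebraMap ℂ (centralSeq A ω) r, hx⟩ : StarAlgebra.adjoin ℂ Gs) =
        algebraMap ℂ (StarAlgebra.adjoin ℂ Gs) r from rfl, AlgHomClass.commutes]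
      exact Algebra.commutes r _
    | add u v hu hv ihu ihv =>
      have hu' := Algebra.adjoin_le (S := (StarAlgebra.adjoin ℂ Gs).toSubalgebra)
        (StarAlgebra.subset_adjoin ℂ Gs) hu
      have hv' := Algebra.adjoin_le (S := (StarAlgebra.adjoin ℂ Gs).toSubalgebra)
        (StarAlgebra.subset_adjoin ℂ Gs) hv
      rw [show (⟨u + v, hx⟩ : StarAlgebra.adjoin ℂ Gs) = ⟨u, hu'⟩ + ⟨v, hv'⟩ from rfl, map_add]
      exact (ihu hu').add_left (ihv hv')
    | mul u v hu hv ihu ihv =>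
      have hu' := Algebra.adjoin_le (S := (StarAlgebra.adjoin ℂ Gs).toSubalgebra)
        (StarAlgebra.subset_adjoin ℂ Gs) hu
      have hv' := Algebra.adjoin_le (S := (StarAlgebra.adjoin ℂ Gs).toSubalgebra)
        (StarAlgebra.subset_adjoin ℂ Gs) hv
      rw [show (⟨u * v, hx⟩ : StarAlgebra.adjoin ℂ Gs) = ⟨u, hu'⟩ * ⟨v, hv'⟩ from rfl, map_mul]
      exact (ihu hu').mul_left (ihv hv')

/-- Equivariance on generators of an invariant set gives equivariance on the generated algebra. -/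
theorem equivariant_of_gen {B : Type*} [CStarAlgebra B] {s : Set B} (f : B →⋆ₐ[ℂ] B)
    (hf : ∀ x ∈ s, f x ∈ s) (Φ : cstarGen s →⋆ₐ[ℂ] B)
    (h : ∀ x (hx : x ∈ s), f (Φ ⟨x, mem_cstarGen_of_mem hx⟩) =
      Φ ⟨f x, mem_cstarGen_of_mem (hf x hx)⟩)
    (z : cstarGen s) : f (Φ z) = Φ ⟨f (z : B), map_mem_cstarGen f hf z.2⟩ :=
  let τ : cstarGen s →⋆ₐ[ℂ] cstarGen s :=
    (f.comp (cstarGen s).subtype).codRestrict _ fun w => map_mem_cstarGen f hf w.2
  cstarGen_induction (T := StarAlgHom.equalizer (f.comp Φ) (Φ.comp τ))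
    (isClosed_eq ((continuous_starAlgHom f).comp (continuous_starAlgHom Φ))
      ((continuous_starAlgHom Φ).comp (continuous_starAlgHom τ))) (fun x hx => h x hx) z

theorem fomegaAct_reindexHom {R₀ : StarSubalgebra ℂ (centralSeq A ω)} (k : ℕ → ℕ)
    (hC : R₀ ≤ (centralSeq A ω).comap ((reindex k).comp (centralSeq A ω).subtype))
    (α : G → A ≃⋆ₐ[ℂ] A) (g : G) {x : centralSeq A ω} (hx : x ∈ R₀)
    (hx' : centralMap α g x ∈ R₀) :
    fomegaAct α g (reindexHom k hC ⟨x, hx⟩) = reindexHom k hC ⟨centralMap α g x, hx'⟩ := by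
  rw [reindexHom_apply, reindexHom_apply, fomegaAct_mk]
  exact congrArg _ (Subtype.ext (BoundedContinuousFunction.ext fun n => rfl))

theorem equivariant_step {R₀ : StarSubalgebra ℂ (centralSeq A ω)} (k : ℕ → ℕ)
    (hC : R₀ ≤ (centralSeq A ω).comap ((reindex k).comp (centralSeq A ω).subtype))
    (hψ : ∀ x, ‖reindexHom k hC x‖ ≤ ‖fomegaMk (x : centralSeq A ω)‖)
    (α : G → A ≃⋆ₐ[ℂ] A) (g : G) {f : Fomega A ω →⋆ₐ[ℂ] Fomega A ω} (hf : f = fomegaAct α g)
    {φ : (fomegaMk.comp R₀.subtype).range.topologicalClosure →⋆ₐ[ℂ] Fomega A ω}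
    (hφ : ∀ z, φ z ∈ closure (Set.range (reindexHom k hC)) ∧
      ∀ x, (z : Fomega A ω) = fomegaMk.comp R₀.subtype x → φ z = reindexHom k hC x)
    {r r' : centralSeq A ω} (h1 : r ∈ R₀) (h2 : r' ∈ R₀) (h3 : centralMap α g r ∈ R₀)
    {z z' : (fomegaMk.comp R₀.subtype).range.topologicalClosure}
    (hz : (z : Fomega A ω) = fomegaMk r) (hz' : (z' : Fomega A ω) = fomegaMk r')
    (hπ : fomegaMk r' = fomegaMk (centralMap α g r)) : f (φ z) = φ z' := by
  rw [(hφ z).2 ⟨r, h1⟩ hz, (hφ z').2 ⟨r', h2⟩ hz', hf, fomegaAct_reindexHom k hC α g h1 h3]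
  have hd := hψ (⟨r', h2⟩ - ⟨centralMap α g r, h3⟩)
  rw [map_sub, AddSubgroupClass.coe_sub, map_sub, hπ, sub_self, norm_zero, norm_le_zero_iff,
    sub_eq_zero] at hd
  exact hd.symm

/-- Finitely many of the maps `fomegaAct α g` admit equivariant copies: reindex representatives
of the generators together with their translates. -/
theorem hasEquivariantCopies_fomegaAct [TopologicalSpace.SeparableSpace A]
    (hω : (ω : Filter ℕ) ≤ atTop) {α : G → A ≃⋆ₐ[ℂ] A} {H : Type*} [Finite H]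
    {ρ : H → Fomega A ω →⋆ₐ[ℂ] Fomega A ω} (hρ : ∀ h, ∃ g, ρ h = fomegaAct α g) :
    HasEquivariantCopies ρ := by
  classical
  intro F S hF
  choose γ hγ using hρ
  choose rep hrep using Ideal.Quotient.mk_surjective (I := nullIdeal A ω)
  let G₀ : Set (centralSeq A ω) :=
    rep '' F ∪ ⋃ h : H, (fun x => centralMap α (γ h) (rep x)) '' F
  let Gs : Set (centralSeq A ω) := G₀ ∪ star '' G₀
  have hG₀ : G₀.Finite :=
    (F.finite_toSet.image _).union (Set.finite_iUnion fun _ => F.finite_toSet.image _)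
  have hGs : ∀ g ∈ Gs, star g ∈ Gs := by
    rintro g (hg | ⟨x, hx, rfl⟩)
    · exact Or.inr ⟨g, hg, rfl⟩
    · exact Or.inl (by rwa [star_star])
  obtain ⟨k, hC, hψ, hcomm⟩ :=
    exists_reindexHom hω (hG₀.union (hG₀.image _)) hGs (S.finite_toSet.image rep)
  obtain ⟨φ, hφ⟩ := exists_dominated_hom (fomegaMk.comp (StarAlgebra.adjoin ℂ Gs).subtype)
    (reindexHom k hC) hψ
  have hle : cstarGen (F : Set (Fomega A ω)) ≤
      (fomegaMk.comp (StarAlgebra.adjoin ℂ Gs).subtype).range.topologicalClosure := by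
    refine StarSubalgebra.topologicalClosure_mono (StarAlgebra.adjoin_le fun x hx => ?_)
    exact ⟨⟨rep x, StarAlgebra.subset_adjoin ℂ Gs (Or.inl (Or.inl ⟨x, hx, rfl⟩))⟩, hrep x⟩
  refine ⟨φ.comp (StarSubalgebra.inclusion hle), fun z b hb => ?_, fun h z hz => ?_⟩
  · refine closure_minimal ?_ (isClosed_eq (continuous_id.mul continuous_const)
      (continuous_const.mul continuous_id)) ((hφ (StarSubalgebra.inclusion hle z)).1)
    rintro _ ⟨x, rfl⟩
    have := hcomm x (rep b) ⟨b, hb, rfl⟩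
    rwa [show fomegaMk (rep b) = b from hrep b] at this
  · have hF' : ∀ x ∈ (F : Set (Fomega A ω)), ρ h x ∈ (F : Set (Fomega A ω)) := fun x hx =>
      Finset.mem_coe.2 (hF h x hx)
    refine equivariant_of_gen (ρ h) hF' (φ.comp (StarSubalgebra.inclusion hle)) (fun x hx => ?_) z
    have h1 : rep x ∈ StarAlgebra.adjoin ℂ Gs :=
      StarAlgebra.subset_adjoin ℂ Gs (Or.inl (Or.inl ⟨x, hx, rfl⟩))
    have h2 : rep (ρ h x) ∈ StarAlgebra.adjoin ℂ Gs :=
      StarAlgebra.subset_adjoin ℂ Gs (Or.inl (Or.inl ⟨_, hF h x hx, rfl⟩))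
    have h3 : centralMap α (γ h) (rep x) ∈ StarAlgebra.adjoin ℂ Gs :=
      StarAlgebra.subset_adjoin ℂ Gs (Or.inl (Or.inr (Set.mem_iUnion.2 ⟨h, x, hx, rfl⟩)))
    have hrep' : ∀ y : Fomega A ω, fomegaMk (rep y) = y := hrep
    have hπ : fomegaMk (rep (ρ h x)) = fomegaMk (centralMap α (γ h) (rep x)) := by
      rw [← fomegaAct_mk, ← hγ, hrep', hrep']
    rw [StarAlgHom.comp_apply, StarAlgHom.comp_apply]
    exact equivariant_step k hC hψ α (γ h) (hγ h) hφ h1 h2 h3 (hrep' x).symm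
      (hrep' (ρ h x)).symm hπ

end Vale.Agent.P095
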