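import Vale.Agent.P095.Action

/-!
P095: inner automorphisms act trivially on `F_ω(A)`, so the induced action only sees the image of
the group in `Out(A)`.
-/

open Filter Topology BoundedContinuousFunction

namespace Vale.Agent.P095

open Vale.Agent.P101

variable {A : Type*} [CStarAlgebra A] {ω : Ultrafilter ℕ} {G : Type*} [Group G]

/-- Automorphisms differing by an inner one induce the same map on `F_ω(A)`. -/
theorem fomegaAct_eq_of_unitary (α : G → A ≃⋆ₐ[ℂ] A) {g h : G} {u : A} (hu : u ∈ unitary A)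
    (hgh : ∀ a, α g a = u * α h a * star u) (x : Fomega A ω) :
    fomegaAct α g x = fomegaAct α h x := by
  obtain ⟨y, rfl⟩ := Ideal.Quotient.mk_surjective x
  refine Ideal.Quotient.eq.2 ?_
  have hy := (((centralMap α h y).2 u).mul_const (star u)).neg
  rw [zero_mul, neg_zero] at hy
  refine (tendsto_zero_iff_norm_tendsto_zero.1 hy).congr fun n => ?_
  refine congrArg (‖·‖) ?_
  show _ = α g ((y : ℕ →ᵇ A) n) - α h ((y : ℕ →ᵇ A) n)
  rw [hgh, sub_mul, neg_sub, centralMap_apply, mul_assoc _ u (star u),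
    Unitary.mul_star_self_of_mem hu, mul_one]

/-- An inner automorphism acts trivially on `F_ω(A)`. -/
theorem fomegaAct_eq_self_of_inner {α : G → A ≃⋆ₐ[ℂ] A} (h1 : ∀ a, α 1 a = a) {g : G} {u : A}
    (hu : u ∈ unitary A) (hg : ∀ a, α g a = u * a * star u) (x : Fomega A ω) :
    fomegaAct α g x = x := by
  rw [fomegaAct_eq_of_unitary α hu (h := 1) (fun a => by rw [hg, h1]) x]
  obtain ⟨y, rfl⟩ := Ideal.Quotient.mk_surjective x
  exact congrArg (Ideal.Quotient.mk (nullIdeal A ω))
    (Subtype.ext (BoundedContinuousFunction.ext fun n => h1 _))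

/-- If modulo inner automorphisms `K` generates only finitely many automorphisms, then it generates
only finitely many automorphisms of `F_ω(A)`. -/
theorem finite_range_fomegaAct (α : G → A ≃⋆ₐ[ℂ] A) (K : Finset G) (T : Finset G)
    (hT : ∀ g ∈ Subgroup.closure (K : Set G), ∃ t ∈ T, ∃ u ∈ unitary A,
      ∀ a, α g a = u * α t a * star u) :
    (Set.range fun g : Subgroup.closure (K : Set G) => fomegaAct (ω := ω) α g).Finite := by
  refine (T.finite_toSet.image fun t => fomegaAct (ω := ω) α t).subset ?_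
  rintro _ ⟨⟨g, hg⟩, rfl⟩
  obtain ⟨t, ht, u, hu, h⟩ := hT g hg
  exact ⟨t, ht, StarAlgHom.ext fun x => (fomegaAct_eq_of_unitary α hu h x).symm⟩

/-- A normal subgroup acting by inner automorphisms with locally finite quotient gives the finite
images needed above. -/
theorem exists_finset_of_normal {α : G → A ≃⋆ₐ[ℂ] A}
    (hmul : ∀ g h a, α (g * h) a = α g (α h a)) (N : Subgroup G) [N.Normal]
    (hN : ∀ g ∈ N, ∃ u ∈ unitary A, ∀ a, α g a = u * a * star u)
    (hlf : ∀ K : Finset (G ⧸ N), Finite (Subgroup.closure (K : Set (G ⧸ N)))) (K : Finset G) :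
    ∃ T : Finset G, ∀ g ∈ Subgroup.closure (K : Set G), ∃ t ∈ T, ∃ u ∈ unitary A,
      ∀ a, α g a = u * α t a * star u := by
  classical
  have := hlf (K.image (QuotientGroup.mk' N))
  refine ⟨(Subgroup.closure ((K.image (QuotientGroup.mk' N) : Finset (G ⧸ N)) : Set (G ⧸ N))
    : Set (G ⧸ N)).toFinite.toFinset.image Quotient.out, fun g hg => ?_⟩
  have hq : QuotientGroup.mk' N g ∈
      Subgroup.closure ((K.image (QuotientGroup.mk' N) : Finset (G ⧸ N)) : Set (G ⧸ N)) := by
    rw [Finset.coe_image, ← MonoidHom.map_closure]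
    exact Subgroup.mem_map_of_mem _ hg
  refine ⟨_, Finset.mem_image_of_mem _ ((Set.Finite.mem_toFinset _).2 hq), ?_⟩
  set t := Quotient.out (QuotientGroup.mk' N g)
  have ht : g * t⁻¹ ∈ N := by
    have h : (QuotientGroup.mk' N) t = QuotientGroup.mk' N g := QuotientGroup.out_eq' _
    have h' : (QuotientGroup.mk' N) (g * t⁻¹) = 1 := by rw [map_mul, map_inv, h, mul_inv_cancel]
    exact (QuotientGroup.eq_one_iff _).1 h'
  obtain ⟨u, hu, h⟩ := hN _ ht
  refine ⟨u, hu, fun a => ?_⟩
  rw [← h (α t a), ← hmul, inv_mul_cancel_right]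

/-- For a normal subgroup acting innerly with locally finite quotient, every finitely generated
subgroup has finite image on `F_ω(A)`. -/
theorem finite_range_fomegaAct_of_normal {α : G → A ≃⋆ₐ[ℂ] A}
    (hmul : ∀ g h a, α (g * h) a = α g (α h a)) (N : Subgroup G) [N.Normal]
    (hN : ∀ g ∈ N, ∃ u ∈ unitary A, ∀ a, α g a = u * a * star u)
    (hlf : ∀ K : Finset (G ⧸ N), Finite (Subgroup.closure (K : Set (G ⧸ N)))) (K : Finset G) :
    (Set.range fun g : Subgroup.closure (K : Set G) => fomegaAct (ω := ω) α g).Finite := by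
  obtain ⟨T, hT⟩ := exists_finset_of_normal hmul N hN hlf K
  exact finite_range_fomegaAct α K T hT

end Vale.Agent.P095
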