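import Vale.Agent.P101.Fomega.Main
import Vale.Agent.P095.Inner
import Vale.Agent.P095.EquivCopies
import Vale.Agent.P095.Diagonal

/-!
P095: equivariant Jiang-Su stability criterion for all actions of countable locally finite groups.
-/

open Filter Topology BoundedContinuousFunction
open scoped ComplexOrder

namespace Vale.Agent.P095

open Vale.Agent.P101

variable {A : Type*} [CStarAlgebra A] {ω : Ultrafilter ℕ} {G : Type*} [Group G]

theorem dimDropPair_map {B C : Type*} [CStarAlgebra B] [CStarAlgebra C] (f : B →⋆ₐ[ℂ] C) {c s : B}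
    (h : DimDropPair c s) : DimDropPair (f c) (f s) := by
  obtain ⟨h1, h2, h3⟩ := h
  refine ⟨?_, ?_, ?_⟩
  · rw [← map_mul, h1, map_zero]
  · simpa only [map_sub, map_mul, map_one, map_star] using congrArg f h2
  · simpa only [map_mul, map_star] using congrArg f h3

/-- The finite group case, inside any algebra with equivariant copies. -/
theorem exists_fixed_dimDropPair {B : Type*} [CStarAlgebra B] [Fintype G]
    {ρ : G → B →⋆ₐ[ℂ] B} (hact : IsAction ρ) (hcop : HasEquivariantCopies ρ)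
    (h : IsEmpty (B →⋆ₐ[ℂ] ℂ)) :
    ∃ c s : B, DimDropPair c s ∧ ∀ g, ρ g c = c ∧ ρ g s = s := by
  obtain ⟨c, s, hcs⟩ :=
    exists_dimDropPair (hasCopies_fixedAlg hcop) (isEmpty_character_fixedAlg hact hcop h)
  exact ⟨c, s, dimDropPair_map (fixedAlg ρ).subtype hcs, fun g => ⟨c.2 g, s.2 g⟩⟩

/-- The induced action of a group element, as a permutation of `F_ω(A)`. -/
noncomputable def fomegaPerm {α : G → A ≃⋆ₐ[ℂ] A} (h1 : ∀ a, α 1 a = a)
    (hmul : ∀ g h a, α (g * h) a = α g (α h a)) : G →* Equiv.Perm (Fomega A ω) where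
  toFun g :=
    { toFun := fomegaAct α g
      invFun := fomegaAct α g⁻¹
      left_inv := fun x => by
        rw [← (isAction_fomegaAct h1 hmul).mul, inv_mul_cancel, (isAction_fomegaAct h1 hmul).one]
      right_inv := fun x => by
        rw [← (isAction_fomegaAct h1 hmul).mul, mul_inv_cancel, (isAction_fomegaAct h1 hmul).one] }
  map_one' := Equiv.ext (isAction_fomegaAct h1 hmul).one
  map_mul' g h := Equiv.ext ((isAction_fomegaAct h1 hmul).mul g h)

/-- The stage for a subgroup inducing only finitely many automorphisms of `F_ω(A)`. -/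
theorem exists_fixed_dimDropPair_subgroup [TopologicalSpace.SeparableSpace A]
    (hω : (ω : Filter ℕ) ≤ atTop) {α : G → A ≃⋆ₐ[ℂ] A} (h1 : ∀ a, α 1 a = a)
    (hmul : ∀ g h a, α (g * h) a = α g (α h a)) (L : Subgroup G)
    (hL : (Set.range fun g : L => fomegaAct (ω := ω) α g).Finite)
    (h : IsEmpty (Fomega A ω →⋆ₐ[ℂ] ℂ)) :
    ∃ c s : Fomega A ω, DimDropPair c s ∧
      ∀ g ∈ L, fomegaAct α g c = c ∧ fomegaAct α g s = s := by
  classical
  set P := ((fomegaPerm (ω := ω) h1 hmul).comp L.subtype).range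
  have hfin : (P : Set (Equiv.Perm (Fomega A ω))).Finite := by
    refine Set.Finite.of_finite_image (f := fun p : Equiv.Perm (Fomega A ω) => ⇑p)
      ((hL.image fun f : Fomega A ω →⋆ₐ[ℂ] Fomega A ω => ⇑f).subset ?_)
      fun p _ q _ hpq => Equiv.ext (congrFun hpq)
    rintro _ ⟨_, ⟨g, rfl⟩, rfl⟩
    exact ⟨_, ⟨g, rfl⟩, rfl⟩
  haveI : Finite P := hfin.to_subtype
  haveI : Fintype P := Fintype.ofFinite _
  have hP : ∀ p : P, ∃ g : L, fomegaPerm (ω := ω) h1 hmul g = p := fun p => p.2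
  choose γ hγ using hP
  let ρ : P → Fomega A ω →⋆ₐ[ℂ] Fomega A ω := fun p => fomegaAct α (γ p)
  have hρ : ∀ (p : P) x, ρ p x = (p : Equiv.Perm (Fomega A ω)) x := fun p x =>
    Equiv.ext_iff.1 (hγ p) x
  have hact : IsAction ρ := ⟨fun x => by rw [hρ]; rfl, fun p q x => by
    rw [hρ, hρ, hρ]; rfl⟩
  obtain ⟨c, s, hcs, hfix⟩ := exists_fixed_dimDropPair hact
    (hasEquivariantCopies_fomegaAct hω fun p => ⟨_, rfl⟩) h
  refine ⟨c, s, hcs, fun g hg => ?_⟩
  have h' := hfix ⟨_, ⟨⟨g, hg⟩, rfl⟩⟩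
  rw [hρ, hρ] at h'
  exact h'

theorem exists_fixed_dimDropPair_fomega [TopologicalSpace.SeparableSpace A] [Countable G]
    (hω : (ω : Filter ℕ) ≤ atTop) {α : G → A ≃⋆ₐ[ℂ] A} (h1 : ∀ a, α 1 a = a)
    (hmul : ∀ g h a, α (g * h) a = α g (α h a))
    (hlf : ∀ K : Finset G,
      (Set.range fun g : Subgroup.closure (K : Set G) => fomegaAct (ω := ω) α g).Finite)
    (h : IsEmpty (Fomega A ω →⋆ₐ[ℂ] ℂ)) :
    ∃ c s : Fomega A ω, DimDropPair c s ∧
      ∀ g, fomegaAct α g c = c ∧ fomegaAct α g s = s := by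
  refine exists_fixed_dimDropPair_of_finite hω α fun K => ?_
  obtain ⟨c, s, hcs, hfix⟩ := exists_fixed_dimDropPair_subgroup hω h1 hmul _ (hlf K) h
  exact ⟨c, s, hcs, fun g hg => hfix g (Subgroup.subset_closure hg)⟩

/-- Invariance of a class, read on representatives. -/
theorem fomegaAct_mk_eq_iff (α : G → A ≃⋆ₐ[ℂ] A) (g : G) (x : centralSeq A ω) :
    fomegaAct α g (fomegaMk x) = fomegaMk x ↔
      Tendsto (fun n => α g ((x : ℕ →ᵇ A) n) - (x : ℕ →ᵇ A) n) ω (𝓝 0) := by
  rw [fomegaAct_mk, mk_eq_iff]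
  rfl

/-- **Main theorem.** For an action of a countable group all of whose finitely generated
subgroups act through finite groups modulo inner automorphisms, `F_ω(A)` has no characters iff it
contains a dimension drop pair fixed by the induced action. -/
theorem characterless_iff_invariant_seqPair [TopologicalSpace.SeparableSpace A] [Countable G]
    (hω : (ω : Filter ℕ) ≤ atTop) {α : G → A ≃⋆ₐ[ℂ] A} (h1 : ∀ a, α 1 a = a)
    (hmul : ∀ g h a, α (g * h) a = α g (α h a))
    (hfin : ∀ K : Finset G, ∃ T : Finset G, ∀ g ∈ Subgroup.closure (K : Set G),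
      ∃ t ∈ T, ∃ u ∈ unitary A, ∀ a, α g a = u * α t a * star u) :
    IsEmpty (FomegaCharacter A ω) ↔
      ∃ c s : ℕ →ᵇ A, c ∈ centralSeq A ω ∧ s ∈ centralSeq A ω ∧
        SeqDimDropPair A ω c s ∧
        ∀ g, Tendsto (fun n => α g (c n) - c n) ω (𝓝 0) ∧
          Tendsto (fun n => α g (s n) - s n) ω (𝓝 0) := by
  rw [isEmpty_fomegaCharacter_iff]
  constructor
  · intro h
    obtain ⟨c, s, hcs, hfix⟩ := exists_fixed_dimDropPair_fomega hω h1 hmul (fun K => by
      obtain ⟨T, hT⟩ := hfin K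
      exact finite_range_fomegaAct α K T hT) h
    obtain ⟨c, rfl⟩ := Ideal.Quotient.mk_surjective c
    obtain ⟨s, rfl⟩ := Ideal.Quotient.mk_surjective s
    exact ⟨c, s, c.2, s.2, (dimDropPair_mk_iff c s).1 hcs, fun g =>
      ⟨(fomegaAct_mk_eq_iff α g c).1 (hfix g).1, (fomegaAct_mk_eq_iff α g s).1 (hfix g).2⟩⟩
  · rintro ⟨c, s, hc, hs, h, -⟩
    exact isEmpty_of_dimDropPair ⟨_, _, (dimDropPair_mk_iff ⟨c, hc⟩ ⟨s, hs⟩).2 h⟩

end Vale.Agent.P095
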