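import Mathlib

/-! P095: weak operator limits along a free ultrafilter. -/

open Filter Topology
open scoped InnerProductSpace

namespace Vale.Agent.P095

variable {H : Type*} [NormedAddCommGroup H] [InnerProductSpace ℂ H] [CompleteSpace H]

/-- The free ultrafilter along which all weak limits are taken. -/
noncomputable abbrev lim : Filter ℕ := ((hyperfilter ℕ : Ultrafilter ℕ) : Filter ℕ)

theorem lim_eventually_ne (m : ℕ) : ∀ᶠ n in lim, n ≠ m :=
  hyperfilter_le_cofinite (eventually_cofinite_ne m)

/-- `T` is the weak operator limit of `f`. -/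
def WLim (f : ℕ → H →L[ℂ] H) (T : H →L[ℂ] H) : Prop :=
  ∀ x y : H, Tendsto (fun n => ⟪x, f n y⟫_ℂ) lim (𝓝 ⟪x, T y⟫_ℂ)

theorem exists_wLim (f : ℕ → H →L[ℂ] H) (c : ℝ) (hf : ∀ n, ‖f n‖ ≤ c) :
    ∃ T : H →L[ℂ] H, WLim f T := by
  classical
  have hb : ∀ (n : ℕ) (x y : H), ‖⟪x, f n y⟫_ℂ‖ ≤ c * ‖y‖ * ‖x‖ := fun n x y => by
    calc _ ≤ ‖x‖ * ‖f n y‖ := norm_inner_le_norm _ _
      _ ≤ ‖x‖ * (c * ‖y‖) := by
        gcongr
        exact ((f n).le_opNorm y).trans (mul_le_mul_of_nonneg_right (hf n) (norm_nonneg _))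
      _ = _ := by ring
  have hex : ∀ x y : H, ∃ l : ℂ, Tendsto (fun n => ⟪f n y, x⟫_ℂ) lim (𝓝 l) := by
    intro x y
    obtain ⟨l, -, hl⟩ := (isCompact_closedBall (0 : ℂ) (c * ‖y‖ * ‖x‖)).ultrafilter_le_nhds
      ((hyperfilter ℕ).map (fun n => ⟪f n y, x⟫_ℂ)) (by
        rw [Ultrafilter.coe_map]
        exact tendsto_principal.2 (Eventually.of_forall fun n => by
          rw [Metric.mem_closedBall, dist_zero_right, norm_inner_symm]
          exact hb n x y))
    exact ⟨l, hl⟩
  choose L hL using hex
  have hadd1 : ∀ x y y', L x (y + y') = L x y + L x y' := fun x y y' =>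
    tendsto_nhds_unique (hL _ _) (((hL x y).add (hL x y')).congr fun n => by simp)
  have hsmul1 : ∀ (a : ℂ) x y, L x (a • y) = (starRingEnd ℂ) a * L x y := fun a x y =>
    tendsto_nhds_unique (hL _ _) (((hL x y).const_mul _).congr fun n => by simp [inner_smul_left]; try ring)
  have hadd2 : ∀ x x' y, L (x + x') y = L x y + L x' y := fun x x' y =>
    tendsto_nhds_unique (hL _ _) (((hL x y).add (hL x' y)).congr fun n => by simp [inner_add_right])
  have hsmul2 : ∀ (a : ℂ) x y, L (a • x) y = a * L x y := fun a x y =>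
    tendsto_nhds_unique (hL _ _) (((hL x y).const_mul _).congr fun n => by simp [inner_smul_right])
  have hnorm : ∀ y x, ‖L x y‖ ≤ c * ‖y‖ * ‖x‖ := fun y x =>
    le_of_tendsto (hL x y).norm (Eventually.of_forall fun n => by
      rw [norm_inner_symm]; exact hb n x y)
  let B : H →L⋆[ℂ] H →L[ℂ] ℂ := LinearMap.mkContinuous₂
    (LinearMap.mk₂'ₛₗ (starRingEnd ℂ) (RingHom.id ℂ) (fun y x => L x y)
      (fun y y' x => hadd1 x y y') (fun a y x => by simp [hsmul1])
      (fun y x x' => hadd2 x x' y) (fun a y x => by simp [hsmul2])) c (fun y x => hnorm y x)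
  refine ⟨InnerProductSpace.continuousLinearMapOfBilin B, fun x y => ?_⟩
  have hB : ⟪InnerProductSpace.continuousLinearMapOfBilin B y, x⟫_ℂ = L x y :=
    InnerProductSpace.continuousLinearMapOfBilin_apply B y x
  have := (Complex.continuous_conj.tendsto _).comp (hL x y)
  rw [← hB, inner_conj_symm] at this
  exact this.congr fun n => by simp [inner_conj_symm]

set_option linter.unusedSectionVars false

namespace WLim

variable {f g : ℕ → H →L[ℂ] H} {S T : H →L[ℂ] H}

theorem unique (h : WLim f S) (h' : WLim f T) : S = T :=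
  ContinuousLinearMap.ext fun y => ext_inner_left ℂ fun x => tendsto_nhds_unique (h x y) (h' x y)

theorem const (S : H →L[ℂ] H) : WLim (fun _ => S) S := fun _ _ => tendsto_const_nhds

theorem congr (h : WLim f S) (he : ∀ᶠ n in lim, f n = g n) : WLim g S := fun x y =>
  (h x y).congr' (he.mono fun n hn => by simp [hn])

theorem add (h : WLim f S) (h' : WLim g T) : WLim (fun n => f n + g n) (S + T) := fun x y => by
  simpa [inner_add_right] using (h x y).add (h' x y)

theorem sub (h : WLim f S) (h' : WLim g T) : WLim (fun n => f n - g n) (S - T) := fun x y => by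
  simpa [inner_sub_right] using (h x y).sub (h' x y)

theorem smul (a : ℂ) (h : WLim f S) : WLim (fun n => a • f n) (a • S) := fun x y => by
  simpa [inner_smul_right] using (h x y).const_mul a

theorem mul_left (M : H →L[ℂ] H) (h : WLim f S) : WLim (fun n => M * f n) (M * S) := fun x y => by
  simpa [ContinuousLinearMap.star_eq_adjoint, ContinuousLinearMap.adjoint_inner_left] using h (star M x) y

theorem mul_right (M : H →L[ℂ] H) (h : WLim f S) : WLim (fun n => f n * M) (S * M) := fun x y => by
  simpa using h x (M y)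

theorem sum {ι : Type*} (s : Finset ι) {f : ι → ℕ → H →L[ℂ] H} {S : ι → H →L[ℂ] H}
    (h : ∀ i ∈ s, WLim (f i) (S i)) : WLim (fun n => ∑ i ∈ s, f i n) (∑ i ∈ s, S i) := fun x y => by
  simpa [inner_sum] using tendsto_finsetSum s fun i hi => h i hi x y

theorem star (h : WLim f S) : WLim (fun n => star (f n)) (star S) := fun x y => by
  have := (Complex.continuous_conj.tendsto _).comp (h y x)
  simpa [Function.comp_def, inner_conj_symm, ContinuousLinearMap.star_eq_adjoint,
    ContinuousLinearMap.adjoint_inner_right] using this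

theorem commute (h : WLim f S) (M : H →L[ℂ] H) (hM : ∀ᶠ n in lim, Commute M (f n)) :
    Commute M S :=
  (h.mul_left M).unique ((h.mul_right M).congr (hM.mono fun _ hn => hn.symm.eq))

end WLim

end Vale.Agent.P095
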